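import Mathlib
import Vale.Agent.P065.H183.Sel5
import Vale.Agent.P065.UB.GridU.Defs

/-!
# P065, upper bound, line U, block [SEL] of `UB/GridU/Defs.lean` (helper299)

`stFr : StFr` from 183's `sel5`. Exceptional triples: (P2)-bad ones and those with equal windows
(few by FLAG). The degree is pruned by whole points.
-/

set_option autoImplicit false

namespace Vale.Agent.P065.H299

open Finset
open Vale.Agent.P065.UB.GridU
open Vale.Agent.P065.H183 (sel5 QG NB Nc)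

/-- `Base` is monotone in `K` -/
theorem base_mono {K K' lam m : ℝ} {Q : Finset (ℝ × ℝ)} {W : Finset ℕ} {lo hi : ℕ → ℝ}
    {R : ℕ → Finset (ℝ × ℝ)} (h : Base K lam m Q W lo hi R) (hK : K ≤ K') :
    Base K' lam m Q W lo hi R := by
  have hm := h.hm
  have hl := h.one
  have h2 := h.two
  have hl0 : 0 < lam := by linarith
  refine ⟨by linarith, hl, hm, ?_, h.sgn, h.lohi, h.disj, ?_, h.subR, ?_, ?_, ?_⟩
  · exact h.cardQ.trans (by gcongr)
  · exact h.cardW.trans (by gcongr)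
  · intro w hw
    exact (h.cardR w hw).trans (by gcongr)
  · intro w hw M hM
    refine (h.join w hw M hM).trans ?_
    gcongr
  · intro a b g t a' b' g' r
    refine (h.star a b g t a' b' g' r).trans ?_
    gcongr

open Classical in
/-- triples with equal windows -/
noncomputable def T0 (Q : Finset (ℝ × ℝ)) (A : Finset ℝ) (E : Finset (ℝ × (ℝ × ℝ)))
    (win : ℝ → ℝ × ℝ → ℕ) : Finset ((ℝ × ℝ) × (ℝ × ℝ)) :=
  {t ∈ (A ×ˢ A) ×ˢ Q | (t.1.1, t.2) ∈ E ∧ (t.1.2, t.2) ∈ E ∧ win t.1.1 t.2 = win t.1.2 t.2}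

open Classical in
/-- (P2)-bad triples -/
noncomputable def T1 (K m : ℝ) (Q : Finset (ℝ × ℝ)) (A : Finset ℝ) (E : Finset (ℝ × (ℝ × ℝ)))
    (win : ℝ → ℝ × ℝ → ℕ) : Finset ((ℝ × ℝ) × (ℝ × ℝ)) :=
  {t ∈ (A ×ˢ A) ×ˢ Q | (t.1.1, t.2) ∈ E ∧ (t.1.2, t.2) ∈ E ∧
      win t.1.1 t.2 ≠ win t.1.2 t.2 ∧
      K * m < #{q ∈ Q | (t.1.1, q) ∈ E ∧ (t.1.2, q) ∈ E ∧ win t.1.1 q = win t.1.1 t.2 ∧
        win t.1.2 q = win t.1.2 t.2}}

open Classical in
/-- the exceptional triples -/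
noncomputable def BadS (K m : ℝ) (Q : Finset (ℝ × ℝ)) (A : Finset ℝ) (E : Finset (ℝ × (ℝ × ℝ)))
    (win : ℝ → ℝ × ℝ → ℕ) : Finset (ℝ × ℝ × (ℝ × ℝ)) :=
  (T0 Q A E win ∪ T1 K m Q A E win).image fun t => (t.1.1, t.1.2, t.2)

theorem card_badS (K m : ℝ) (Q : Finset (ℝ × ℝ)) (A : Finset ℝ) (E : Finset (ℝ × (ℝ × ℝ)))
    (win : ℝ → ℝ × ℝ → ℕ) :
    (#(BadS K m Q A E win) : ℝ) ≤ #(T0 Q A E win) + #(T1 K m Q A E win) := by
  classical
  have h : #(BadS K m Q A E win) ≤ #(T0 Q A E win) + #(T1 K m Q A E win) := by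
    unfold BadS
    exact card_image_le.trans (card_union_le _ _)
  exact_mod_cast h

open Classical in
theorem not_badS {K m : ℝ} {Q : Finset (ℝ × ℝ)} {A : Finset ℝ} {E : Finset (ℝ × (ℝ × ℝ))}
    {win : ℝ → ℝ × ℝ → ℕ} {a b : ℝ} {q : ℝ × ℝ} (ha : a ∈ A) (hb : b ∈ A) (hq : q ∈ Q)
    (ea : (a, q) ∈ E) (eb : (b, q) ∈ E) (h : (a, b, q) ∉ BadS K m Q A E win) :
    win a q ≠ win b q ∧
    (#{q' ∈ Q | (a, q') ∈ E ∧ (b, q') ∈ E ∧ win a q' = win a q ∧ win b q' = win b q} : ℝ) ≤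
      K * m := by
  have hw : win a q ≠ win b q := by
    intro hw
    apply h
    unfold BadS
    rw [mem_image]
    refine ⟨((a, b), q), ?_, rfl⟩
    rw [mem_union]
    left
    unfold T0
    rw [mem_filter, mem_product, mem_product]
    exact ⟨⟨⟨ha, hb⟩, hq⟩, ea, eb, hw⟩
  refine ⟨hw, ?_⟩
  by_contra hc
  push Not at hc
  apply h
  unfold BadS
  rw [mem_image]
  refine ⟨((a, b), q), ?_, rfl⟩
  rw [mem_union]
  right
  unfold T1
  rw [mem_filter, mem_product, mem_product]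
  exact ⟨⟨⟨ha, hb⟩, hq⟩, ea, eb, hw, hc⟩

open Classical in
theorem card_T0 {B : ℝ} {Q : Finset (ℝ × ℝ)} {W : Finset ℕ} {A : Finset ℝ}
    {E : Finset (ℝ × (ℝ × ℝ))} {win : ℝ → ℝ × ℝ → ℕ} (hB : 0 ≤ B)
    (hW : ∀ e ∈ E, win e.1 e.2 ∈ W)
    (flag : ∀ q ∈ Q, ∀ w ∈ W, (#{u ∈ A | (u, q) ∈ E ∧ win u q = w} : ℝ) ≤ B) :
    (#(T0 Q A E win) : ℝ) ≤ B * (#A * #Q) := by
  have h1 : #(T0 Q A E win) ≤ ⌊B⌋₊ * #((T0 Q A E win).image fun t => (t.1.1, t.2)) := by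
    refine card_le_mul_card_image _ _ ?_
    intro p hp
    obtain ⟨t, ht, rfl⟩ := mem_image.1 hp
    unfold T0 at ht
    rw [mem_filter, mem_product, mem_product] at ht
    obtain ⟨⟨⟨ha, hb⟩, hq⟩, ea, eb, hw⟩ := ht
    apply Nat.le_floor
    refine le_trans ?_ (flag t.2 hq (win t.1.1 t.2) (hW _ ea))
    norm_cast
    refine card_le_card_of_injOn (fun s => s.1.2) ?_ ?_
    · intro s hs
      rw [mem_coe, mem_filter] at hs
      obtain ⟨hs, hst⟩ := hs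
      unfold T0 at hs
      rw [mem_filter, mem_product, mem_product] at hs
      obtain ⟨⟨⟨ha', hb'⟩, hq'⟩, ea', eb', hw'⟩ := hs
      simp only [Prod.mk.injEq] at hst
      obtain ⟨h1, h2⟩ := hst
      rw [mem_coe, mem_filter]
      refine ⟨hb', ?_, ?_⟩
      · rw [← h2]; exact eb'
      · rw [← h2, ← h1]; exact hw'.symm
    · intro s hs s' hs' he
      rw [mem_coe, mem_filter] at hs hs'
      have h1 := hs.2
      have h2 := hs'.2
      simp only [Prod.mk.injEq] at h1 h2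
      simp only at he
      refine Prod.ext (Prod.ext ?_ he) ?_
      · rw [h1.1, h2.1]
      · rw [h1.2, h2.2]
  have h2 : #((T0 Q A E win).image fun t => (t.1.1, t.2)) ≤ #A * #Q := by
    rw [← card_product]
    refine card_le_card ?_
    intro p hp
    obtain ⟨t, ht, rfl⟩ := mem_image.1 hp
    unfold T0 at ht
    rw [mem_filter, mem_product, mem_product] at ht
    rw [mem_product]
    exact ⟨ht.1.1.1, ht.1.2⟩
  calc (#(T0 Q A E win) : ℝ) ≤ ((⌊B⌋₊ * #((T0 Q A E win).image fun t => (t.1.1, t.2)) : ℕ) : ℝ) := by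
        exact_mod_cast h1
    _ = (⌊B⌋₊ : ℝ) * (#((T0 Q A E win).image fun t => (t.1.1, t.2)) : ℝ) := by push_cast; ring
    _ ≤ B * (#A * #Q) := by
        have h3 : (#((T0 Q A E win).image fun t => (t.1.1, t.2)) : ℝ) ≤ #A * #Q := by
          exact_mod_cast h2
        gcongr
        exact Nat.floor_le hB

open Classical in
/-- pruning: keep the pairs whose point has many apexes -/
theorem prune {A : Finset ℝ} {Q : Finset (ℝ × ℝ)} {G : Finset (ℝ × (ℝ × ℝ))} {X Y T : ℝ}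
    (hX : 0 < X) (hY : 0 ≤ Y)
    (hA : ∀ e ∈ G, e.1 ∈ A) (hQ : ∀ e ∈ G, e.2 ∈ Q) (hT : #Q * Y ≤ T) :
    X * (#G : ℝ) ≤ X * #{e ∈ G | Y ≤ X * #{u ∈ A | (u, e.2) ∈ G}} + T := by
  have h1 : (#G : ℝ) = #{e ∈ G | Y ≤ X * #{u ∈ A | (u, e.2) ∈ G}} +
      #{e ∈ G | ¬ Y ≤ X * #{u ∈ A | (u, e.2) ∈ G}} := by
    have := Finset.card_filter_add_card_filter_not (s := G)
      (fun e => Y ≤ X * #{u ∈ A | (u, e.2) ∈ G})
    exact_mod_cast this.symm
  have h2 : #{e ∈ G | ¬ Y ≤ X * #{u ∈ A | (u, e.2) ∈ G}} ≤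
      ⌊Y / X⌋₊ * #({e ∈ G | ¬ Y ≤ X * #{u ∈ A | (u, e.2) ∈ G}}.image Prod.snd) := by
    refine card_le_mul_card_image _ _ ?_
    intro p hp
    obtain ⟨t, ht, rfl⟩ := mem_image.1 hp
    rw [mem_filter] at ht
    apply Nat.le_floor
    have h3 := ht.2
    push Not at h3
    rw [le_div_iff₀ hX, mul_comm]
    refine le_trans ?_ h3.le
    gcongr
    refine card_le_card_of_injOn Prod.fst ?_ ?_
    · intro s hs
      rw [mem_coe, mem_filter, mem_filter] at hs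
      rw [mem_coe, mem_filter]
      refine ⟨hA _ hs.1.1, ?_⟩
      rw [← hs.2]
      exact hs.1.1
    · intro s hs s' hs' he
      rw [mem_coe, mem_filter] at hs hs'
      exact Prod.ext he (by rw [hs.2, hs'.2])
  have h3 : #({e ∈ G | ¬ Y ≤ X * #{u ∈ A | (u, e.2) ∈ G}}.image Prod.snd) ≤ #Q := by
    refine card_le_card ?_
    intro p hp
    obtain ⟨t, ht, rfl⟩ := mem_image.1 hp
    exact hQ _ (mem_filter.1 ht).1
  have h4 : (#{e ∈ G | ¬ Y ≤ X * #{u ∈ A | (u, e.2) ∈ G}} : ℝ) ≤ Y / X * #Q := by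
    calc (#{e ∈ G | ¬ Y ≤ X * #{u ∈ A | (u, e.2) ∈ G}} : ℝ)
        ≤ ((⌊Y / X⌋₊ * #({e ∈ G | ¬ Y ≤ X * #{u ∈ A | (u, e.2) ∈ G}}.image Prod.snd) : ℕ) : ℝ) := by
          exact_mod_cast h2
      _ = (⌊Y / X⌋₊ : ℝ) *
          (#({e ∈ G | ¬ Y ≤ X * #{u ∈ A | (u, e.2) ∈ G}}.image Prod.snd) : ℝ) := by
          push_cast; ring
      _ ≤ Y / X * #Q := by
          have h5 : (#({e ∈ G | ¬ Y ≤ X * #{u ∈ A | (u, e.2) ∈ G}}.image Prod.snd) : ℝ) ≤ #Q := by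
            exact_mod_cast h3
          gcongr
          exact Nat.floor_le (by positivity)
  have h5 : X * (Y / X * #Q) = #Q * Y := by field_simp
  nlinarith [mul_le_mul_of_nonneg_left h4 hX.le]

theorem pow_two_le {x : ℝ} (hx : 2 ≤ x) (n : ℕ) : (2 : ℝ) ^ n ≤ x ^ n := by gcongr

open Classical in
/-- the numbers: `sel5` applies and gives a dense set of pairs -/
theorem sel_core {Kd D K lam m : ℝ} {Q : Finset (ℝ × ℝ)} {W : Finset ℕ} {lo hi : ℕ → ℝ}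
    {R : ℕ → Finset (ℝ × ℝ)} {A : Finset ℝ} {E : Finset (ℝ × (ℝ × ℝ))} {win : ℝ → ℝ × ℝ → ℕ}
    (h : Fr0 Kd D K lam m Q W lo hi R A E win) (hKK : Kd ≤ K) (hD : Kd ^ 35 ≤ D)
    (hlam : K ^ 32 ≤ lam) (hm1 : 1 ≤ m) :
    ∃ (o1 o2 o3 : ℝ) (G : Finset (ℝ × (ℝ × ℝ))), G ⊆ E ∧ G.Nonempty ∧
      lam ^ 3 * m ^ 2 ≤ 15360 * Kd ^ 13 * #G ∧
      ∀ p ∈ G, QG A Q E (fun x => x) o1 o2 o3 p.1 p.2 ∧ NB (BadS K m Q A E win) o1 o2 p.1 p.2 := by
  have hKd := h.hKd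
  have hKd0 : 0 < Kd := by linarith
  have hK2 : 2 ≤ K := h.two
  have hK0 : 0 < K := by linarith
  have hm0 : 0 < m := by linarith
  have hl1 := h.one
  have hl0 : 0 < lam := by linarith
  have hsub : E ⊆ A ×ˢ Q := fun e he => mem_product.2 ⟨h.memA e he, h.memQ e he⟩
  have hEle : (#E : ℝ) ≤ #A * #Q := by
    have := card_le_card hsub
    rw [card_product] at this
    exact_mod_cast this
  have hA0 : (0 : ℝ) ≤ #A := by positivity
  have hQ0 : (0 : ℝ) ≤ #Q := by positivity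
  have hdens : lam ^ 3 * m ^ 2 ≤ Kd * (#A * #Q) :=
    h.dens.trans (mul_le_mul_of_nonneg_left hEle hKd0.le)
  have hcQ := h.cardQd
  have hcA := h.cardA
  -- lower bounds for `#A`, `#Q`
  have hAlow : lam * m ≤ Kd ^ 2 * #A := by
    have h1 : lam ^ 3 * m ^ 2 ≤ Kd * (#A * (Kd * lam ^ 2 * m)) := by
      refine hdens.trans ?_
      gcongr
    have h2 : (lam ^ 2 * m) * (lam * m) ≤ (lam ^ 2 * m) * (Kd ^ 2 * #A) := by
      calc (lam ^ 2 * m) * (lam * m) = lam ^ 3 * m ^ 2 := by ring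
        _ ≤ _ := h1
        _ = _ := by ring
    exact le_of_mul_le_mul_left h2 (by positivity)
  have hQlow : lam ^ 2 * m ≤ Kd ^ 2 * #Q := by
    have h1 : lam ^ 3 * m ^ 2 ≤ Kd * ((Kd * lam * m) * #Q) := by
      refine hdens.trans ?_
      gcongr
    have h2 : (lam * m) * (lam ^ 2 * m) ≤ (lam * m) * (Kd ^ 2 * #Q) := by
      calc (lam * m) * (lam ^ 2 * m) = lam ^ 3 * m ^ 2 := by ring
        _ ≤ _ := h1
        _ = _ := by ring
    exact le_of_mul_le_mul_left h2 (by positivity)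
  have hApos : (0 : ℝ) < #A := by
    have : 0 < lam * m := by positivity
    by_contra hc
    have h0 : (#A : ℝ) = 0 := le_antisymm (not_lt.1 hc) hA0
    rw [h0, mul_zero] at hAlow
    linarith
  have hQpos : (0 : ℝ) < #Q := by
    have : 0 < lam ^ 2 * m := by positivity
    by_contra hc
    have h0 : (#Q : ℝ) = 0 := le_antisymm (not_lt.1 hc) hQ0
    rw [h0, mul_zero] at hQlow
    linarith
  -- density for `sel5`
  have hd : (#A : ℝ) * #Q ≤ Kd ^ 3 * #E := by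
    calc (#A : ℝ) * #Q ≤ (Kd * lam * m) * (Kd * lam ^ 2 * m) := by gcongr
      _ = Kd ^ 2 * (lam ^ 3 * m ^ 2) := by ring
      _ ≤ Kd ^ 2 * (Kd * #E) := mul_le_mul_of_nonneg_left h.dens (by positivity)
      _ = _ := by ring
  have hlam1 : (92160 * Kd ^ 14 * K) ≤ lam := by
    calc 92160 * Kd ^ 14 * K ≤ K ^ 17 * K ^ 14 * K := by
          have h1 : (92160 : ℝ) ≤ K ^ 17 := le_trans (by norm_num) (pow_two_le hK2 17)
          gcongr
      _ = K ^ 32 := by ring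
      _ ≤ lam := hlam
  have hV : 16 * Kd ^ 3 ≤ (#A : ℝ) := by
    have h1 : 16 * Kd ^ 5 ≤ lam := by
      calc 16 * Kd ^ 5 ≤ K ^ 4 * K ^ 5 := by
            have h1 : (16 : ℝ) ≤ K ^ 4 := le_trans (by norm_num) (pow_two_le hK2 4)
            gcongr
        _ = K ^ 9 := by ring
        _ ≤ K ^ 32 := pow_le_pow_right₀ (by linarith) (by norm_num)
        _ ≤ lam := hlam
    have h2 : Kd ^ 2 * (16 * Kd ^ 3) ≤ Kd ^ 2 * #A := by
      calc Kd ^ 2 * (16 * Kd ^ 3) = 16 * Kd ^ 5 * 1 := by ring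
        _ ≤ lam * m := by gcongr
        _ ≤ _ := hAlow
    exact le_of_mul_le_mul_left h2 (by positivity)
  -- the exceptional triples are few
  have hT1 : 92160 * Kd ^ 12 * (#(T1 K m Q A E win) : ℝ) ≤ (#A : ℝ) ^ 2 * #Q := by
    have h1 : D * (#(T1 K m Q A E win) : ℝ) ≤ (lam * m) ^ 2 * (lam ^ 2 * m) := h.p2
    have h2 : (lam * m) ^ 2 * (lam ^ 2 * m) ≤ (Kd ^ 2 * #A) ^ 2 * (Kd ^ 2 * #Q) := by gcongr
    have h3 : 92160 * Kd ^ 18 ≤ D := by
      calc 92160 * Kd ^ 18 ≤ Kd ^ 17 * Kd ^ 18 := by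
            have h1 : (92160 : ℝ) ≤ Kd ^ 17 := le_trans (by norm_num) (pow_two_le hKd 17)
            gcongr
        _ = Kd ^ 35 := by ring
        _ ≤ D := hD
    have h4 : Kd ^ 6 * (92160 * Kd ^ 12 * (#(T1 K m Q A E win) : ℝ)) ≤
        Kd ^ 6 * ((#A : ℝ) ^ 2 * #Q) := by
      calc Kd ^ 6 * (92160 * Kd ^ 12 * (#(T1 K m Q A E win) : ℝ))
          = (92160 * Kd ^ 18) * (#(T1 K m Q A E win) : ℝ) := by ring
        _ ≤ D * (#(T1 K m Q A E win) : ℝ) := by gcongr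
        _ ≤ _ := h1
        _ ≤ _ := h2
        _ = _ := by ring
    exact le_of_mul_le_mul_left h4 (by positivity)
  have hT0 : 92160 * Kd ^ 12 * (#(T0 Q A E win) : ℝ) ≤ (#A : ℝ) ^ 2 * #Q := by
    have h1 := card_T0 (B := K * m) (by positivity) h.memW h.flag
    have h2 : Kd ^ 2 * (92160 * Kd ^ 12 * (K * m)) ≤ Kd ^ 2 * #A := by
      calc Kd ^ 2 * (92160 * Kd ^ 12 * (K * m)) = (92160 * Kd ^ 14 * K) * m := by ring
        _ ≤ lam * m := by gcongr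
        _ ≤ _ := hAlow
    have h3 : 92160 * Kd ^ 12 * (K * m) ≤ #A := le_of_mul_le_mul_left h2 (by positivity)
    calc 92160 * Kd ^ 12 * (#(T0 Q A E win) : ℝ)
        ≤ 92160 * Kd ^ 12 * (K * m * (#A * #Q)) := by gcongr
      _ = (92160 * Kd ^ 12 * (K * m)) * (#A * #Q) := by ring
      _ ≤ #A * (#A * #Q) := by gcongr
      _ = _ := by ring
  have hB : 46080 * (Kd ^ 3) ^ 4 * (#(BadS K m Q A E win) : ℝ) ≤ (#A : ℝ) ^ 2 * #Q := by
    have h1 := card_badS K m Q A E win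
    calc 46080 * (Kd ^ 3) ^ 4 * (#(BadS K m Q A E win) : ℝ)
        ≤ 46080 * (Kd ^ 3) ^ 4 * (#(T0 Q A E win) + #(T1 K m Q A E win)) := by gcongr
      _ = (92160 * Kd ^ 12 * (#(T0 Q A E win) : ℝ) +
            92160 * Kd ^ 12 * (#(T1 K m Q A E win) : ℝ)) / 2 := by ring
      _ ≤ _ := by linarith
  have hKd3 : 1 ≤ Kd ^ 3 := one_le_pow₀ (by linarith)
  obtain ⟨o1, o2, o3, G, hGE, hG, hGp⟩ := sel5 A Q E (BadS K m Q A E win) (fun x => x) (Kd ^ 3)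
    hKd3 hsub hd hV (card_pos.1 (by exact_mod_cast hQpos)) hB (fun a _ b _ hab => hab)
  have hGd : lam ^ 3 * m ^ 2 ≤ 15360 * Kd ^ 13 * #G := by
    calc lam ^ 3 * m ^ 2 ≤ Kd * (#A * #Q) := hdens
      _ ≤ Kd * (15360 * (Kd ^ 3) ^ 4 * #G) := by gcongr
      _ = _ := by ring
  refine ⟨o1, o2, o3, G, hGE, ?_, hGd, hGp⟩
  by_contra hc
  rw [not_nonempty_iff_eq_empty] at hc
  rw [hc, card_empty] at hGd
  have : 0 < lam ^ 3 * m ^ 2 := by positivity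
  norm_num at hGd
  linarith

/-- the multipliers -/
theorem mu_bounds {x1 x2 x3 x : ℝ} (h : Nc x1 x2 x3 x) (h13 : x1 ≠ x3) (h23 : x2 ≠ x3)
    (h2 : x2 ≠ x) :
    1 ≤ 4 * |mu x1 x2 (|x2 - x3| / |x3 - x1|) x| ∧ |mu x1 x2 (|x2 - x3| / |x3 - x1|) x| ≤ 4 := by
  have a13 : 0 < |x3 - x1| := abs_pos.2 (sub_ne_zero.2 h13.symm)
  have a23 : 0 < |x2 - x3| := abs_pos.2 (sub_ne_zero.2 h23)
  have a2 : 0 < |x2 - x| := abs_pos.2 (sub_ne_zero.2 h2)
  have e : |mu x1 x2 (|x2 - x3| / |x3 - x1|) x| =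
      (|x - x1| * |x2 - x3|) / (|x2 - x| * |x3 - x1|) := by
    unfold mu
    rw [abs_div, abs_mul, abs_div, abs_abs, abs_abs, abs_sub_comm x1 x, abs_sub_comm x x2]
    field_simp
  rw [e]
  constructor
  · rw [← mul_div_assoc, le_div_iff₀ (by positivity)]
    linarith [h.lo]
  · rw [div_le_iff₀ (by positivity)]
    linarith [h.up]

/-- **[SEL]** -/
theorem stFr : StFr := by
  classical
  refine ⟨35, 32, ?_⟩
  intro Kd D K lam m Q W lo hi R A E win h hKK hD hlam hm1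
  obtain ⟨o1, o2, o3, G, hGE, hGne, hGd, hGp⟩ := sel_core h hKK hD hlam hm1
  have hKd := h.hKd
  have hKd0 : 0 < Kd := by linarith
  have hK2 : 2 ≤ K := h.two
  have hK0 : 0 < K := by linarith
  have hK1 : 1 ≤ K := by linarith
  have hm0 : 0 < m := by linarith
  have hl1 := h.one
  have hl0 : 0 < lam := by linarith
  have hKC : K ≤ K ^ 32 := le_self_pow₀ hK1 (by norm_num)
  have hKC0 : 0 < K ^ 32 := by positivity
  have hbig : 30720 * Kd ^ 14 ≤ K ^ 32 := by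
    calc 30720 * Kd ^ 14 ≤ K ^ 15 * K ^ 14 := by
          have h1 : (30720 : ℝ) ≤ K ^ 15 := le_trans (by norm_num) (pow_two_le hK2 15)
          gcongr
      _ = K ^ 29 := by ring
      _ ≤ K ^ 32 := pow_le_pow_right₀ hK1 (by norm_num)
  obtain ⟨e0, he0⟩ := hGne
  obtain ⟨qg, -⟩ := hGp e0 he0
  have hGA : ∀ e ∈ G, e.1 ∈ A := fun e he => h.memA e (hGE he)
  have hGQ : ∀ e ∈ G, e.2 ∈ Q := fun e he => h.memQ e (hGE he)
  set E' := {e ∈ G | lam * m ≤ K ^ 32 * #{u ∈ A | (u, e.2) ∈ G}} with hE'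
  have hE'G : E' ⊆ G := filter_subset _ _
  have hE'E : E' ⊆ E := hE'G.trans hGE
  have hpr := prune (A := A) (Q := Q) (G := G) (X := K ^ 32) (Y := lam * m)
    (T := Kd * lam ^ 3 * m ^ 2) hKC0 (by positivity) hGA hGQ (by
      calc (#Q : ℝ) * (lam * m) ≤ (Kd * lam ^ 2 * m) * (lam * m) := by
            gcongr; exact h.cardQd
        _ = _ := by ring)
  have hE'd : lam ^ 3 * m ^ 2 ≤ K ^ 32 * #E' := by
    have h1 : Kd * lam ^ 3 * m ^ 2 ≤ K ^ 32 / 2 * #G := by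
      calc Kd * lam ^ 3 * m ^ 2 = Kd * (lam ^ 3 * m ^ 2) := by ring
        _ ≤ Kd * (15360 * Kd ^ 13 * #G) := by gcongr
        _ = 30720 * Kd ^ 14 / 2 * #G := by ring
        _ ≤ _ := by gcongr
    have h2 : K ^ 32 / 2 * (#G : ℝ) ≤ K ^ 32 * #E' := by
      have : K ^ 32 * (#G : ℝ) ≤ K ^ 32 * #E' + Kd * lam ^ 3 * m ^ 2 := hpr
      linarith
    have h3 : lam ^ 3 * m ^ 2 ≤ Kd * lam ^ 3 * m ^ 2 := by
      have : 0 ≤ lam ^ 3 * m ^ 2 := by positivity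
      nlinarith
    linarith
  have hE'p : ∀ e ∈ E', ∀ u, ((u, e.2) ∈ G) → (u, e.2) ∈ E' := by
    intro e he u hu
    rw [hE', mem_filter] at he ⊢
    exact ⟨hu, he.2⟩
  refine ⟨o1, o2, |o2 - o3| / |o3 - o1|, E'.image Prod.fst, E', qg.v1, qg.v2, ?_, hE'E, ?_⟩
  · intro u hu
    obtain ⟨e, he, rfl⟩ := mem_image.1 hu
    exact hGA e (hE'G he)
  refine ⟨base_mono h.toBase hKC, qg.n12, ?_, ?_, ?_, ?_, ?_, hE'd, ?_, ?_, ?_, ?_, ?_, ?_, ?_, ?_,
    ?_, ?_⟩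
  · -- hrho
    have h1 : 0 < |o2 - o3| := abs_pos.2 (sub_ne_zero.2 qg.n23)
    have h2 : 0 < |o3 - o1| := abs_pos.2 (sub_ne_zero.2 qg.n13.symm)
    positivity
  · -- cardA
    have h1 : #(E'.image Prod.fst) ≤ #A := by
      refine card_le_card ?_
      intro u hu
      obtain ⟨e, he, rfl⟩ := mem_image.1 hu
      exact hGA e (hE'G he)
    calc (#(E'.image Prod.fst) : ℝ) ≤ #A := by exact_mod_cast h1
      _ ≤ Kd * lam * m := h.cardA
      _ ≤ K ^ 32 * lam * m := by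
          have := hKK.trans hKC
          gcongr
  · -- memA
    intro e he
    exact mem_image_of_mem _ he
  · -- memQ
    intro e he
    exact hGQ e (hE'G he)
  · -- memW
    intro e he v hv
    obtain ⟨q1, -⟩ := hGp e (hE'G he)
    rcases hv with rfl | rfl | rfl
    · exact ⟨h.memW _ q1.e1, h.memR _ q1.e1, h.see _ q1.e1⟩
    · exact ⟨h.memW _ q1.e2, h.memR _ q1.e2, h.see _ q1.e2⟩
    · exact ⟨h.memW _ q1.ea, h.memR _ q1.ea, h.see _ q1.ea⟩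
  · -- deg
    intro e he
    have h1 := (mem_filter.1 (hE' ▸ he)).2
    refine h1.trans ?_
    gcongr
    intro u hu
    rw [mem_filter] at hu
    have := hE'p e he u hu.2
    rw [mem_filter]
    exact ⟨mem_image_of_mem Prod.fst this, this⟩
  · -- touch1
    have h1 : #(E'.image fun e => win o1 e.2) ≤ #{w ∈ W | ∃ q, (o1, q) ∈ E ∧ win o1 q = w} := by
      refine card_le_card ?_
      intro w hw
      obtain ⟨e, he, rfl⟩ := mem_image.1 hw
      obtain ⟨q1, -⟩ := hGp e (hE'G he)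
      rw [mem_filter]
      exact ⟨h.memW _ q1.e1, e.2, q1.e1, rfl⟩
    calc (#(E'.image fun e => win o1 e.2) : ℝ)
        ≤ #{w ∈ W | ∃ q, (o1, q) ∈ E ∧ win o1 q = w} := by exact_mod_cast h1
      _ ≤ K * lam := h.touch o1 qg.v1
      _ ≤ _ := by gcongr
  · -- touch2
    have h1 : #(E'.image fun e => win o2 e.2) ≤ #{w ∈ W | ∃ q, (o2, q) ∈ E ∧ win o2 q = w} := by
      refine card_le_card ?_
      intro w hw
      obtain ⟨e, he, rfl⟩ := mem_image.1 hw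
      obtain ⟨q1, -⟩ := hGp e (hE'G he)
      rw [mem_filter]
      exact ⟨h.memW _ q1.e2, e.2, q1.e2, rfl⟩
    calc (#(E'.image fun e => win o2 e.2) : ℝ)
        ≤ #{w ∈ W | ∃ q, (o2, q) ∈ E ∧ win o2 q = w} := by exact_mod_cast h1
      _ ≤ K * lam := h.touch o2 qg.v2
      _ ≤ _ := by gcongr
  · -- touch
    intro u hu
    obtain ⟨e, he, rfl⟩ := mem_image.1 hu
    have h1 : #{w ∈ W | ∃ q, (e.1, q) ∈ E' ∧ win e.1 q = w} ≤
        #{w ∈ W | ∃ q, (e.1, q) ∈ E ∧ win e.1 q = w} := by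
      refine card_le_card ?_
      intro w hw
      rw [mem_filter] at hw ⊢
      obtain ⟨hw1, q, hq1, hq2⟩ := hw
      exact ⟨hw1, q, hE'E hq1, hq2⟩
    calc (#{w ∈ W | ∃ q, (e.1, q) ∈ E' ∧ win e.1 q = w} : ℝ)
        ≤ #{w ∈ W | ∃ q, (e.1, q) ∈ E ∧ win e.1 q = w} := by exact_mod_cast h1
      _ ≤ K * lam := h.touch e.1 (hGA e (hE'G he))
      _ ≤ _ := by gcongr
  · -- flag
    intro q hq w hw
    have h1 : #{u ∈ E'.image Prod.fst | (u, q) ∈ E' ∧ win u q = w} ≤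
        #{u ∈ A | (u, q) ∈ E ∧ win u q = w} := by
      refine card_le_card ?_
      intro u hu
      rw [mem_filter] at hu ⊢
      exact ⟨hGA _ (hE'G hu.2.1), hE'E hu.2.1, hu.2.2⟩
    calc (#{u ∈ E'.image Prod.fst | (u, q) ∈ E' ∧ win u q = w} : ℝ)
        ≤ #{u ∈ A | (u, q) ∈ E ∧ win u q = w} := by exact_mod_cast h1
      _ ≤ K * m := h.flag q hq w hw
      _ ≤ _ := by gcongr
  · -- p12
    intro e he
    obtain ⟨q1, n1, n2, n3⟩ := hGp e (hE'G he)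
    have h1 := (not_badS q1.v1 q1.v2 q1.hq q1.e1 q1.e2 n1).2
    have h2 : #{q ∈ E'.image Prod.snd | win o1 q = win o1 e.2 ∧ win o2 q = win o2 e.2} ≤
        #{q' ∈ Q | (o1, q') ∈ E ∧ (o2, q') ∈ E ∧ win o1 q' = win o1 e.2 ∧
          win o2 q' = win o2 e.2} := by
      refine card_le_card ?_
      intro q hq
      rw [mem_filter] at hq ⊢
      obtain ⟨hq1, hq2, hq3⟩ := hq
      obtain ⟨f, hf, rfl⟩ := mem_image.1 hq1
      obtain ⟨q2, -⟩ := hGp f (hE'G hf)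
      exact ⟨q2.hq, q2.e1, q2.e2, hq2, hq3⟩
    calc (#{q ∈ E'.image Prod.snd | win o1 q = win o1 e.2 ∧ win o2 q = win o2 e.2} : ℝ)
        ≤ #{q' ∈ Q | (o1, q') ∈ E ∧ (o2, q') ∈ E ∧ win o1 q' = win o1 e.2 ∧
          win o2 q' = win o2 e.2} := by exact_mod_cast h2
      _ ≤ K * m := h1
      _ ≤ _ := by gcongr
  · -- p1a
    intro e he
    obtain ⟨q1, n1, n2, n3⟩ := hGp e (hE'G he)
    have h1 := (not_badS q1.v1 q1.va q1.hq q1.e1 q1.ea n2).2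
    have h2 : #{q ∈ Q | (e.1, q) ∈ E' ∧ win e.1 q = win e.1 e.2 ∧ win o1 q = win o1 e.2} ≤
        #{q' ∈ Q | (o1, q') ∈ E ∧ (e.1, q') ∈ E ∧ win o1 q' = win o1 e.2 ∧
          win e.1 q' = win e.1 e.2} := by
      refine card_le_card ?_
      intro q hq
      rw [mem_filter] at hq ⊢
      obtain ⟨hq0, hq1, hq2, hq3⟩ := hq
      obtain ⟨q2, -⟩ := hGp _ (hE'G hq1)
      exact ⟨q2.hq, q2.e1, q2.ea, hq3, hq2⟩
    calc (#{q ∈ Q | (e.1, q) ∈ E' ∧ win e.1 q = win e.1 e.2 ∧ win o1 q = win o1 e.2} : ℝ)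
        ≤ #{q' ∈ Q | (o1, q') ∈ E ∧ (e.1, q') ∈ E ∧ win o1 q' = win o1 e.2 ∧
          win e.1 q' = win e.1 e.2} := by exact_mod_cast h2
      _ ≤ K * m := h1
      _ ≤ _ := by gcongr
  · -- p2a
    intro e he
    obtain ⟨q1, n1, n2, n3⟩ := hGp e (hE'G he)
    have h1 := (not_badS q1.v2 q1.va q1.hq q1.e2 q1.ea n3).2
    have h2 : #{q ∈ Q | (e.1, q) ∈ E' ∧ win e.1 q = win e.1 e.2 ∧ win o2 q = win o2 e.2} ≤
        #{q' ∈ Q | (o2, q') ∈ E ∧ (e.1, q') ∈ E ∧ win o2 q' = win o2 e.2 ∧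
          win e.1 q' = win e.1 e.2} := by
      refine card_le_card ?_
      intro q hq
      rw [mem_filter] at hq ⊢
      obtain ⟨hq0, hq1, hq2, hq3⟩ := hq
      obtain ⟨q2, -⟩ := hGp _ (hE'G hq1)
      exact ⟨q2.hq, q2.e2, q2.ea, hq3, hq2⟩
    calc (#{q ∈ Q | (e.1, q) ∈ E' ∧ win e.1 q = win e.1 e.2 ∧ win o2 q = win o2 e.2} : ℝ)
        ≤ #{q' ∈ Q | (o2, q') ∈ E ∧ (e.1, q') ∈ E ∧ win o2 q' = win o2 e.2 ∧
          win e.1 q' = win e.1 e.2} := by exact_mod_cast h2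
      _ ≤ K * m := h1
      _ ≤ _ := by gcongr
  · -- neA
    intro u hu
    obtain ⟨e, he, rfl⟩ := mem_image.1 hu
    obtain ⟨q1, -⟩ := hGp e (hE'G he)
    exact ⟨q1.n1a.symm, q1.n2a.symm⟩
  · -- mult
    intro u hu
    obtain ⟨e, he, rfl⟩ := mem_image.1 hu
    obtain ⟨q1, -⟩ := hGp e (hE'G he)
    exact mu_bounds q1.nc q1.n13 q1.n23 q1.n2a

end Vale.Agent.P065.H299
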